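import Mathlib

/-!
Every sufficiently long segment of the plane contains the centre of a large disc free of
Gaussian primes.
-/

namespace Vale.Agent.P015

open GaussianInt ComplexConjugate

noncomputable section

/-- An even sequence in which each term is divisible by all earlier values of `x ^ 2 + 1`. -/
def mval : ℕ → ℤ
  | 0 => 2
  | k + 1 => mval k * (mval k ^ 2 + 1)

/-- Gaussian integers with pairwise coprime norms, coprime to their conjugates. -/
def qv (k : ℕ) : GaussianInt := ⟨mval k, 1⟩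

theorem two_dvd_mval (k : ℕ) : (2 : ℤ) ∣ mval k := by
  induction k with
  | zero => exact ⟨1, rfl⟩
  | succ k ih => exact Dvd.dvd.mul_right ih _

theorem mval_pos (k : ℕ) : 2 ≤ mval k := by
  induction k with
  | zero => exact le_refl _
  | succ k ih =>
    show 2 ≤ mval k * (mval k ^ 2 + 1)
    nlinarith [mul_nonneg (by linarith : (0:ℤ) ≤ mval k) (sq_nonneg (mval k))]

theorem mval_dvd_of_le {j k : ℕ} (h : j ≤ k) : mval j ∣ mval k := by
  induction h with
  | refl => exact dvd_refl _
  | step _ ih => exact Dvd.dvd.mul_right ih _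

theorem sq_add_one_dvd {j k : ℕ} (h : j < k) : mval j ^ 2 + 1 ∣ mval k :=
  dvd_trans (Dvd.intro_left _ rfl) (mval_dvd_of_le (Nat.succ_le_of_lt h))

theorem qv_mul_star (k : ℕ) :
    qv k * star (qv k) = ((mval k ^ 2 + 1 : ℤ) : GaussianInt) := by
  apply Zsqrtd.ext <;> simp [qv, pow_two]

theorem isCoprime_qv_star (k : ℕ) : IsCoprime (qv k) (star (qv k)) := by
  obtain ⟨c, hc⟩ := two_dvd_mval k
  refine ⟨star (qv k) + ⟨0, 2 * c ^ 2⟩, -⟨0, 2 * c ^ 2⟩, ?_⟩
  apply Zsqrtd.ext <;> simp [qv, hc] <;> ring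

theorem isCoprime_norms {j k : ℕ} (h : j ≠ k) :
    IsCoprime (mval j ^ 2 + 1 : ℤ) (mval k ^ 2 + 1) := by
  rcases lt_or_gt_of_ne h with h | h
  · obtain ⟨c, hc⟩ := sq_add_one_dvd h
    exact ⟨-(c * mval k), 1, by rw [hc]; ring⟩
  · obtain ⟨c, hc⟩ := sq_add_one_dvd h
    exact ⟨1, -(c * mval j), by rw [hc]; ring⟩

theorem isCoprime_qv {j k : ℕ} (h : j ≠ k) :
    IsCoprime (qv j) (qv k) ∧ IsCoprime (qv j) (star (qv k)) := by
  have := (isCoprime_norms h).intCast (R := GaussianInt)
  rw [← qv_mul_star, ← qv_mul_star] at this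
  exact ⟨this.of_mul_left_left.of_mul_right_left, this.of_mul_left_left.of_mul_right_right⟩

theorem isCoprime_qv_star' (j k : ℕ) : IsCoprime (qv j) (star (qv k)) := by
  rcases eq_or_ne j k with rfl | h
  · exact isCoprime_qv_star j
  · exact (isCoprime_qv h).2

theorem qv_ne_zero (k : ℕ) : qv k ≠ 0 := by
  intro h
  have := congrArg Zsqrtd.im h
  simp [qv] at this

theorem qv_not_unit (k : ℕ) : ¬ IsUnit (qv k) := by
  intro h
  have h1 := (Zsqrtd.norm_eq_one_iff' (by norm_num) (qv k)).2 h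
  simp [Zsqrtd.norm_def, qv] at h1
  nlinarith [mval_pos k]

theorem crt {ι : Type*} (s : Finset ι) (q a : ι → GaussianInt)
    (h : Set.Pairwise (s : Set ι) (fun i j => IsCoprime (q i) (q j))) :
    ∃ z, ∀ i ∈ s, q i ∣ z - a i := by
  classical
  induction s using Finset.induction with
  | empty => exact ⟨0, by simp⟩
  | @insert b s hb ih =>
    obtain ⟨z, hz⟩ := ih (h.mono (by simp))
    have hc : IsCoprime (∏ i ∈ s, q i) (q b) := by
      apply IsCoprime.prod_left
      intro i hi
      exact h (by simp [hi]) (by simp) (fun e => hb (e ▸ hi))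
    obtain ⟨x, y, hxy⟩ := hc
    refine ⟨z + (∏ i ∈ s, q i) * (x * (a b - z)), ?_⟩
    intro i hi
    rcases Finset.mem_insert.1 hi with rfl | hi
    · refine ⟨y * (z - a i), ?_⟩
      linear_combination (a i - z) * hxy
    · have := dvd_add (hz i hi)
        (Dvd.dvd.mul_right (Finset.dvd_prod_of_mem q hi) (x * (a b - z)))
      convert this using 1
      ring

/-- Two coprime lattice cosets of centres of prime-free discs, coprime also to the conjugates. -/
theorem exists_moduli (R : ℝ) :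
    ∃ (μ z : Fin 2 → GaussianInt) (B : ℝ),
      (∀ i, μ i ≠ 0) ∧ IsCoprime (μ 0) (μ 1) ∧ (∀ i j, IsCoprime (μ i) (star (μ j))) ∧
      ∀ (i : Fin 2) (w p : GaussianInt), Prime p →
        ‖(p : ℂ) - ((z i + μ i * w : GaussianInt) : ℂ)‖ ≤ R → ‖(p : ℂ)‖ ≤ B := by
  classical
  set K : ℤ := ⌈R⌉
  set S : Finset (ℤ × ℤ) := Finset.Icc (-K) K ×ˢ Finset.Icc (-K) K
  set e : Fin 2 → S → ℕ := fun i δ => Fintype.equivFin (Fin 2 × S) (i, δ)
  have he : ∀ {i j : Fin 2} {a b : S}, e i a = e j b → i = j ∧ a = b := by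
    intro i j a b h
    exact Prod.ext_iff.1 ((Fintype.equivFin (Fin 2 × S)).injective (Fin.ext h))
  have hpair : ∀ i : Fin 2, Set.Pairwise ((Finset.univ : Finset S) : Set S)
      (fun a b => IsCoprime (qv (e i a)) (qv (e i b))) :=
    fun i a _ b _ hab => (isCoprime_qv (fun h => hab (he h).2)).1
  choose z hz using fun i : Fin 2 =>
    crt (Finset.univ : Finset S) (fun a => qv (e i a))
      (fun a => -(⟨a.1.1, a.1.2⟩ : GaussianInt)) (hpair i)
  refine ⟨fun i => ∏ a : S, qv (e i a), z,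
    ∑ i : Fin 2, ∑ a : S, ‖((qv (e i a) : GaussianInt) : ℂ)‖, ?_, ?_, ?_, ?_⟩
  · intro i
    exact Finset.prod_ne_zero_iff.2 fun a _ => qv_ne_zero _
  · exact IsCoprime.prod_left fun a _ => IsCoprime.prod_right fun b _ =>
      (isCoprime_qv (fun h => absurd (he h).1 (by decide))).1
  · intro i j
    rw [star_prod]
    exact IsCoprime.prod_left fun a _ => IsCoprime.prod_right fun b _ =>
      isCoprime_qv_star' _ _
  · intro i w p hp hd
    set d := p - (z i + (∏ a : S, qv (e i a)) * w)
    have hd' : ‖(d : ℂ)‖ ≤ R := by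
      simpa [d, map_sub] using hd
    have hK : R ≤ (K : ℝ) := Int.le_ceil R
    have h1 : |d.re| ≤ K := by
      have := (Complex.abs_re_le_norm (d : ℂ)).trans (hd'.trans hK)
      rw [GaussianInt.re_toComplex] at this
      exact_mod_cast this
    have h2 : |d.im| ≤ K := by
      have := (Complex.abs_im_le_norm (d : ℂ)).trans (hd'.trans hK)
      rw [GaussianInt.im_toComplex] at this
      exact_mod_cast this
    rw [abs_le] at h1 h2
    let a : S := ⟨(d.re, d.im), by simp [S, h1.1, h1.2, h2.1, h2.2]⟩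
    have hdvd : qv (e i a) ∣ p := by
      have hza := hz i a (Finset.mem_univ _)
      have hw := Dvd.dvd.mul_right
        (Finset.dvd_prod_of_mem (fun a => qv (e i a)) (Finset.mem_univ a)) w
      have hsum := dvd_add hza hw
      have hde : (⟨a.1.1, a.1.2⟩ : GaussianInt) = d := rfl
      convert hsum using 1
      rw [hde]
      simp only [d]
      ring
    obtain ⟨c, hc⟩ := hdvd
    rcases hp.irreducible.isUnit_or_isUnit hc with hu | hu
    · exact absurd hu (qv_not_unit _)
    · have hn : ‖(c : ℂ)‖ = 1 := by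
        have h := (Zsqrtd.norm_eq_one_iff' (by norm_num) c).2 hu
        have h' : Complex.normSq (c : ℂ) = 1 := by
          rw [← GaussianInt.intCast_real_norm, h]; simp
        rw [Complex.normSq_eq_norm_sq] at h'
        exact (sq_eq_one_iff.1 h').resolve_right (by linarith [norm_nonneg (c : ℂ)])
      calc ‖(p : ℂ)‖ = ‖((qv (e i a) : GaussianInt) : ℂ)‖ := by
            rw [hc, map_mul, norm_mul, hn, mul_one]
        _ ≤ ∑ a : S, ‖((qv (e i a) : GaussianInt) : ℂ)‖ :=
            Finset.single_le_sum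
              (f := fun a : S => ‖((qv (e i a) : GaussianInt) : ℂ)‖)
              (fun _ _ => norm_nonneg _) (Finset.mem_univ a)
        _ ≤ _ := Finset.single_le_sum
              (f := fun i : Fin 2 => ∑ a : S, ‖((qv (e i a) : GaussianInt) : ℂ)‖)
              (fun _ _ => Finset.sum_nonneg fun _ _ => norm_nonneg _) (Finset.mem_univ i)

theorem ne_zero_norm {x : GaussianInt} (hx : x ≠ 0) : 0 < ‖(x : ℂ)‖ := by
  simpa using hx

/-- Dirichlet approximation of a direction by a primitive Gaussian integer. -/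
theorem exists_direction (d : ℂ) (hd : ‖d‖ = 1) (n : ℕ) (hn : 0 < n) :
    ∃ v : GaussianInt, IsCoprime v.re v.im ∧ ‖(v : ℂ)‖ ≤ 3 * n ∧
      |(conj d * (v : ℂ)).im| ≤ 1 / (n + 1) := by
  have hre : |d.re| ≤ 1 := hd ▸ Complex.abs_re_le_norm d
  have him : |d.im| ≤ 1 := hd ▸ Complex.abs_im_le_norm d
  have main : ∀ x y : ℝ, |y| ≤ |x| → 0 < |x| → |x| ≤ 1 →
      ∃ p q : ℤ, IsCoprime p q ∧ |x * q - y * p| ≤ 1 / (n + 1) ∧
        |(p : ℝ)| + |(q : ℝ)| ≤ 3 * n := by
    intro x y hyx hx hx1
    obtain ⟨r, hr, hrn⟩ := Real.exists_rat_abs_sub_le_and_den_le (y / x) hn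
    refine ⟨(r.den : ℤ), r.num, ?_, ?_, ?_⟩
    · exact (Int.isCoprime_iff_nat_coprime.2 (by simpa using r.reduced)).symm
    · have hden : (0 : ℝ) < r.den := by exact_mod_cast r.pos
      have e : x * (r.num : ℝ) - y * r.den = -(x * r.den * (y / x - r)) := by
        have : (r : ℝ) * r.den = r.num := by
          rw [Rat.cast_def]; field_simp
        have hx0 : x ≠ 0 := abs_pos.1 hx
        rw [← this]; field_simp; ring
      push_cast
      rw [e, abs_neg, abs_mul, abs_mul, abs_of_pos hden]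
      calc |x| * r.den * |y / x - r| ≤ 1 * r.den * (1 / ((n + 1) * r.den)) := by
            gcongr
        _ = 1 / (n + 1) := by field_simp
    · have hden : (0 : ℝ) < r.den := by exact_mod_cast r.pos
      have hd1 : (1 : ℝ) ≤ r.den := by exact_mod_cast r.pos
      have hdn : (r.den : ℝ) ≤ n := by exact_mod_cast hrn
      have hyx' : |y / x| ≤ 1 := by
        rw [abs_div]; exact (div_le_one hx).2 hyx
      have hr1 : |(r : ℝ)| ≤ 2 := by
        have h1 : 1 / ((n + 1 : ℝ) * r.den) ≤ 1 := by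
          rw [div_le_one (by positivity)]
          nlinarith
        rw [abs_le] at hr hyx' ⊢
        constructor <;> linarith
      have : (r : ℝ) * r.den = r.num := by
        rw [Rat.cast_def]; field_simp
      push_cast
      rw [← this, abs_mul, abs_of_pos hden]
      nlinarith [abs_nonneg (r : ℝ)]
  have hpos : 0 < |d.re| ∨ 0 < |d.im| := by
    by_contra h
    push Not at h
    have : d = 0 := Complex.ext (abs_nonpos_iff.1 h.1) (abs_nonpos_iff.1 h.2)
    simp [this] at hd
  have hbound : ∀ p q : ℤ,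
      ‖((⟨p, q⟩ : GaussianInt) : ℂ)‖ ≤ |(p : ℝ)| + |(q : ℝ)| := by
    intro p q
    have := Complex.norm_le_abs_re_add_abs_im ((⟨p, q⟩ : GaussianInt) : ℂ)
    simpa [GaussianInt.re_toComplex, GaussianInt.im_toComplex] using this
  rcases le_total |d.im| |d.re| with h | h
  · obtain ⟨p, q, hpq, hc, hb⟩ := main d.re d.im h
      (by rcases hpos with h' | h' <;> linarith) hre
    refine ⟨⟨p, q⟩, hpq, (hbound p q).trans hb, ?_⟩
    convert hc using 1
    congr 1
    simp [Complex.mul_im, GaussianInt.re_toComplex, GaussianInt.im_toComplex]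
    ring
  · obtain ⟨p, q, hpq, hc, hb⟩ := main d.im d.re h
      (by rcases hpos with h' | h' <;> linarith) him
    refine ⟨⟨q, p⟩, hpq.symm, (hbound q p).trans (by linarith), ?_⟩
    rw [← abs_neg] at hc
    convert hc using 1
    congr 1
    simp [Complex.mul_im, GaussianInt.re_toComplex, GaussianInt.im_toComplex]
    ring

/-- Lattice points near a segment in a nearly rational direction. -/
theorem exists_lattice_near (c d : ℂ) (hd : ‖d‖ = 1) (v : GaussianInt)
    (hv : IsCoprime v.re v.im) :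
    ∃ (s : ℝ) (w : GaussianInt), |s| ≤ ‖(v : ℂ)‖ ∧
      ‖(w : ℂ) - (c + s * d)‖ ≤ |(conj d * (v : ℂ)).im| + 1 / (2 * ‖(v : ℂ)‖) := by
  have hv0 : v ≠ 0 := by
    rintro rfl
    exact not_isCoprime_zero_zero hv
  have hV := ne_zero_norm hv0
  set V : ℂ := (v : ℂ) with hVdef
  obtain ⟨x, y, hxy⟩ := hv
  set k : ℤ := round (conj V * c).im
  -- a lattice point on the nearest lattice line in direction `v`
  set w0 : GaussianInt := ⟨-k * y, k * x⟩
  have hw0 : (conj V * (w0 : ℂ)).im = k := by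
    have hxy' : (x : ℝ) * v.re + y * v.im = 1 := by exact_mod_cast hxy
    have e1 : V.re = v.re := (GaussianInt.intCast_re v).symm
    have e2 : V.im = v.im := (GaussianInt.intCast_im v).symm
    rw [Complex.mul_im, Complex.conj_re, Complex.conj_im, e1, e2, GaussianInt.re_toComplex,
      GaussianInt.im_toComplex]
    push_cast
    linear_combination (k : ℝ) * hxy'
  set t : ℝ := ((conj V * ((w0 : ℂ) - c)) / ((‖V‖ ^ 2 : ℝ) : ℂ)).re
  set w : GaussianInt := w0 - (⌊t⌋ : GaussianInt) * v
  set al : ℂ := (conj V * ((w : ℂ) - c)) / ((‖V‖ ^ 2 : ℝ) : ℂ)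
  have hVV : conj V * V = ((‖V‖ ^ 2 : ℝ) : ℂ) := by
    rw [← Complex.normSq_eq_conj_mul_self, Complex.normSq_eq_norm_sq]
  have hne : ((‖V‖ ^ 2 : ℝ) : ℂ) ≠ 0 := by
    have : (0 : ℝ) < ‖V‖ ^ 2 := by positivity
    exact_mod_cast this.ne'
  have hal : (conj V * ((w0 : ℂ) - c)) / ((‖V‖ ^ 2 : ℝ) : ℂ) - ((⌊t⌋ : ℝ) : ℂ) = al := by
    simp only [al, w, map_sub, map_mul, map_intCast]
    field_simp
    rw [← hVV]
    push_cast
    ring
  have hare : 0 ≤ al.re ∧ al.re ≤ 1 := by
    rw [← hal, Complex.sub_re, Complex.ofReal_re]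
    exact ⟨by linarith [Int.floor_le t], by linarith [Int.lt_floor_add_one t]⟩
  have haim : |al.im| ≤ 1 / (2 * ‖V‖ ^ 2) := by
    rw [← hal, Complex.sub_im, Complex.ofReal_im, sub_zero, Complex.div_ofReal_im,
      mul_sub, Complex.sub_im, hw0, abs_div, abs_of_pos (show (0:ℝ) < ‖V‖ ^ 2 by positivity),
      abs_sub_comm, ← div_div]
    gcongr
    exact abs_sub_round _
  have hwc : (w : ℂ) - c = al * V := by
    simp only [al]
    field_simp
    rw [← hVV]
    ring
  set g : ℂ := conj d * V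
  have hgV : V = d * g := by
    simp only [g]
    rw [← mul_assoc, Complex.mul_conj, Complex.normSq_eq_norm_sq, hd]
    simp
  refine ⟨al.re * g.re, w, ?_, ?_⟩
  · rw [abs_mul, abs_of_nonneg hare.1]
    have : |g.re| ≤ ‖V‖ := by
      calc |g.re| ≤ ‖g‖ := Complex.abs_re_le_norm g
        _ = ‖V‖ := by simp [g, hd]
    nlinarith [abs_nonneg g.re]
  · have e : (w : ℂ) - (c + ((al.re * g.re : ℝ) : ℂ) * d)
        = ((al.re * g.im : ℝ) : ℂ) * Complex.I * d + (al.im : ℂ) * Complex.I * V := by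
      rw [← sub_sub, hwc]
      nth_rewrite 1 [← Complex.re_add_im al]
      have h2 : (g : ℂ) = (g.re : ℂ) + (g.im : ℂ) * Complex.I := (Complex.re_add_im g).symm
      push_cast
      calc ((al.re : ℂ) + al.im * Complex.I) * V - al.re * g.re * d
          = (al.re : ℂ) * V - al.re * g.re * d + al.im * Complex.I * V := by ring
        _ = _ := by
          nth_rewrite 1 [hgV]
          nth_rewrite 1 [h2]
          ring
    rw [e]
    refine (norm_add_le _ _).trans (add_le_add ?_ ?_)
    · simp [hd]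
      rw [abs_of_nonneg hare.1]
      calc al.re * |g.im| ≤ 1 * |g.im| := by gcongr; exact hare.2
        _ = |g.im| := one_mul _
    · simp
      calc |al.im| * ‖V‖ ≤ 1 / (2 * ‖V‖ ^ 2) * ‖V‖ := by gcongr
        _ = _ := by field_simp

/-- Two cosets of coprime moduli meet the unit neighbourhood of every long segment. -/
theorem coset_near_segment (μ z : Fin 2 → GaussianInt) (hμ : ∀ i, μ i ≠ 0)
    (h01 : IsCoprime (μ 0) (μ 1)) (hc : ∀ i j, IsCoprime (μ i) (star (μ j))) :
    ∃ L : ℝ, 0 ≤ L ∧ ∀ a u : ℂ, ‖u‖ = 1 → ∃ (s : ℝ) (i : Fin 2) (w : GaussianInt),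
      |s| ≤ L ∧ ‖((z i + μ i * w : GaussianInt) : ℂ) - (a + s * u)‖ ≤ 1 := by
  set A : Fin 2 → ℝ := fun i => ‖(μ i : ℂ)‖ with hA
  have hA0 : ∀ i, 0 < A i := fun i => ne_zero_norm (hμ i)
  set M : ℝ := 2 * A 0 + 2 * A 1 + 2 * (A 0 ^ 2 * A 1 + A 1 ^ 2 * A 0) with hM
  obtain ⟨n, hn⟩ := exists_nat_gt M
  have hM0 : 0 ≤ M := by
    have := hA0 0; have := hA0 1; positivity
  have hn0 : 0 < n := by exact_mod_cast hM0.trans_lt hn
  refine ⟨3 * n * (A 0 + A 1), by have := hA0 0; have := hA0 1; positivity, ?_⟩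
  intro a u hu
  set d : Fin 2 → ℂ := fun i => u * conj (μ i : ℂ) / (A i : ℂ) with hd
  have hd1 : ∀ i, ‖d i‖ = 1 := by
    intro i
    have := (hA0 i).ne'
    simp [hd, hu, abs_of_pos (hA0 i)]
    exact div_self this
  choose v hvc hvn hvi using fun i => exists_direction (d i) (hd1 i) n hn0
  by_cases hgood : ∃ i, A i ≤ ‖(v i : ℂ)‖
  · obtain ⟨i, hi⟩ := hgood
    obtain ⟨s, w, hs, hw⟩ :=
      exists_lattice_near ((a - (z i : ℂ)) / (μ i : ℂ)) (d i) (hd1 i) (v i) (hvc i)
    refine ⟨s * A i, i, w, ?_, ?_⟩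
    · rw [abs_mul, abs_of_pos (hA0 i)]
      calc |s| * A i ≤ (3 * n) * A i := by
            gcongr
            exact hs.trans (hvn i)
        _ ≤ _ := by
            gcongr
            fin_cases i
            · simp; linarith [hA0 1]
            · simp; linarith [hA0 0]
    · have hm : (μ i : ℂ) ≠ 0 := by simpa using hμ i
      have hmd : (μ i : ℂ) * d i = (A i : ℂ) * u := by
        have h2 : (μ i : ℂ) * conj (μ i : ℂ) = ((A i : ℂ)) ^ 2 := by
          rw [Complex.mul_conj, Complex.normSq_eq_norm_sq]; push_cast; rfl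
        have h3 : (A i : ℂ) ≠ 0 := by exact_mod_cast (hA0 i).ne'
        simp only [hd]
        field_simp
        linear_combination u * h2
      have e : ((z i + μ i * w : GaussianInt) : ℂ) - (a + ((s * A i : ℝ) : ℂ) * u)
          = (μ i : ℂ) * ((w : ℂ) - ((a - (z i : ℂ)) / (μ i : ℂ) + s * d i)) := by
        rw [mul_sub, mul_add, mul_div_cancel₀ _ hm, mul_left_comm, hmd, map_add, map_mul]
        push_cast
        ring
      rw [e, norm_mul]
      have hn1 : 2 * A i ≤ (n : ℝ) + 1 := by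
        have h0 := hA0 0
        have h1 := hA0 1
        have hp : 0 ≤ 2 * (A 0 ^ 2 * A 1 + A 1 ^ 2 * A 0) := by positivity
        fin_cases i <;> simp at * <;> linarith
      calc A i * _ ≤ A i * (1 / (n + 1) + 1 / (2 * A i)) := by
            gcongr
            refine hw.trans (add_le_add (hvi i) ?_)
            gcongr
        _ = A i / (n + 1) + 1 / 2 := by field_simp [(hA0 i).ne']
        _ ≤ 1 / 2 + 1 / 2 := by
            refine add_le_add ?_ le_rfl
            rw [div_le_iff₀ (by positivity)]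
            linarith
        _ = 1 := by norm_num
  · exfalso
    push Not at hgood
    set t : GaussianInt := star (μ 0 * v 0) * (μ 1 * v 1) with ht
    set P : Fin 2 → ℂ := fun i => conj u * ((μ i * v i : GaussianInt) : ℂ) with hP
    have hPim : ∀ i, |(P i).im| ≤ A i / (n + 1) := by
      intro i
      have h3 : (A i : ℂ) ≠ 0 := by exact_mod_cast (hA0 i).ne'
      have e : P i = (A i : ℂ) * (conj (d i) * (v i : ℂ)) := by
        simp [hP, hd]
        field_simp
      rw [e, Complex.im_ofReal_mul, abs_mul, abs_of_pos (hA0 i), div_eq_mul_one_div]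
      gcongr
      exact hvi i
    have hPre : ∀ i, |(P i).re| ≤ A i * A i := by
      intro i
      refine (Complex.abs_re_le_norm _).trans ?_
      simp only [hP, map_mul, norm_mul, Complex.norm_conj, hu, one_mul]
      exact mul_le_mul_of_nonneg_left (hgood i).le (hA0 i).le
    have htC : (t : ℂ) = conj (P 0) * P 1 := by
      have h2 : u * conj u = 1 := by
        rw [Complex.mul_conj, Complex.normSq_eq_norm_sq, hu]; simp
      simp only [ht, hP, map_mul, GaussianInt.toComplex_star, Complex.conj_conj]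
      linear_combination
        (-(conj (μ 0 : ℂ) * conj (v 0 : ℂ) * (μ 1 : ℂ) * (v 1 : ℂ))) * h2
    have htim : t.im = 0 := by
      have hlt : |((t.im : ℤ) : ℝ)| < 1 := by
        rw [← GaussianInt.im_toComplex, htC]
        simp only [Complex.mul_im, Complex.conj_re, Complex.conj_im]
        calc |(P 0).re * (P 1).im + -(P 0).im * (P 1).re|
            ≤ |(P 0).re| * |(P 1).im| + |(P 0).im| * |(P 1).re| := by
              refine (abs_add_le _ _).trans ?_
              rw [abs_mul, abs_mul, abs_neg]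
          _ ≤ A 0 * A 0 * (A 1 / (n + 1)) + A 0 / (n + 1) * (A 1 * A 1) :=
              add_le_add
                (mul_le_mul (hPre 0) (hPim 1) (abs_nonneg _) (mul_self_nonneg _))
                (mul_le_mul (hPim 0) (hPre 1) (abs_nonneg _)
                  (div_nonneg (hA0 0).le (by positivity)))
          _ = (A 0 ^ 2 * A 1 + A 1 ^ 2 * A 0) / (n + 1) := by ring
          _ < 1 := by
              rw [div_lt_one (by positivity)]
              have h0 := hA0 0
              have h1 := hA0 1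
              have hp : 0 < A 0 ^ 2 * A 1 + A 1 ^ 2 * A 0 := by positivity
              linarith
      have : |t.im| < 1 := by exact_mod_cast hlt
      exact Int.abs_lt_one_iff.1 this
    have hstar : star t = t := by
      apply Zsqrtd.ext <;> simp [htim]
    have d1 : star (μ 0) * μ 1 ∣ t := ⟨star (v 0) * v 1, by rw [ht, star_mul]; ring⟩
    have d2 : μ 0 * star (μ 1) ∣ t := by
      rw [← hstar]
      exact ⟨v 0 * star (v 1), by
        rw [ht]; simp only [star_mul, star_star]; ring⟩
    have hco : IsCoprime (star (μ 0) * μ 1) (μ 0 * star (μ 1)) := by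
      have hs : IsCoprime (star (μ 0)) (star (μ 1)) := by
        have := h01.map (starRingEnd GaussianInt)
        simpa [starRingEnd_apply] using this
      exact IsCoprime.mul_left (IsCoprime.mul_right (hc 0 0).symm hs)
        (IsCoprime.mul_right h01.symm (hc 1 1))
    obtain ⟨c, hcdiv⟩ := hco.mul_dvd d1 d2
    have ht0 : t ≠ 0 := by
      have hv : ∀ i, v i ≠ 0 := fun i h => by
        have := hvc i
        rw [h] at this
        exact not_isCoprime_zero_zero this
      simp [ht, hμ, hv]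
    have hc0 : c ≠ 0 := fun h => ht0 (by rw [hcdiv, h, mul_zero])
    have hc1 : 1 ≤ ‖(c : ℂ)‖ := by
      have h1 : (0 : ℤ) < c.norm := GaussianInt.norm_pos.2 hc0
      have h2 : (1 : ℝ) ≤ Complex.normSq (c : ℂ) := by
        rw [← GaussianInt.intCast_real_norm]; exact_mod_cast h1
      rw [Complex.normSq_eq_norm_sq] at h2
      nlinarith [norm_nonneg (c : ℂ)]
    have e1 : ‖(t : ℂ)‖ = A 0 * ‖(v 0 : ℂ)‖ * (A 1 * ‖(v 1 : ℂ)‖) := by
      simp [ht, hA, GaussianInt.toComplex_star]
    have e2 : ‖(t : ℂ)‖ = A 0 * A 1 * (A 0 * A 1) * ‖(c : ℂ)‖ := by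
      rw [hcdiv]
      simp [hA, GaussianInt.toComplex_star]
    have hpp : (0 : ℝ) < A 0 * A 1 := mul_pos (hA0 0) (hA0 1)
    have hlt2 : ‖(v 0 : ℂ)‖ * ‖(v 1 : ℂ)‖ < A 0 * A 1 :=
      mul_lt_mul'' (hgood 0) (hgood 1) (norm_nonneg _) (norm_nonneg _)
    nlinarith [mul_lt_mul_of_pos_left hlt2 hpp,
      le_mul_of_one_le_right (mul_pos hpp hpp).le hc1]

/-- Every sufficiently long segment has a point far from all Gaussian primes. -/
theorem segment_moat (R : ℝ) :
    ∃ T : ℝ, ∀ a b : ℂ, T ≤ ‖b - a‖ →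
      ∃ c ∈ segment ℝ a b, ∀ p : GaussianInt, Prime p → R < ‖(p : ℂ) - c‖ := by
  obtain ⟨μ, z, B, hμ, h01, hc, hB⟩ := exists_moduli (R + 1)
  obtain ⟨L, hL, hnear⟩ := coset_near_segment μ z hμ h01 hc
  set C : ℝ := max (B + R + 1) 0 + 1 with hC
  have hC0 : 0 < C := by positivity
  have hC1 : B + R + 1 ≤ C := by linarith [le_max_left (B + R + 1) 0]
  refine ⟨2 * (C + 2 * L), ?_⟩
  intro a b hab
  wlog hb : ‖a‖ ≤ ‖b‖ generalizing a b with H
  · obtain ⟨c, hc1, hc2⟩ := H b a (by rwa [norm_sub_rev]) (not_le.1 hb).le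
    exact ⟨c, by rwa [segment_symm], hc2⟩
  set l : ℝ := ‖b - a‖ with hl
  have hl0 : 0 < l := by linarith
  have hb2 : C + 2 * L ≤ ‖b‖ := by
    have := norm_sub_le b a
    linarith
  set u : ℂ := (b - a) / (l : ℂ) with hu
  have hu1 : ‖u‖ = 1 := by
    simp [hu, ← hl, abs_of_pos hl0, div_self hl0.ne']
  obtain ⟨s, i, w, hs, hw⟩ := hnear (b - (L : ℂ) * u) u hu1
  rw [abs_le] at hs
  set θ : ℝ := 1 + (s - L) / l with hθ
  refine ⟨b - (L : ℂ) * u + (s : ℂ) * u, ?_, ?_⟩
  · rw [segment_eq_image']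
    refine ⟨θ, ⟨?_, ?_⟩, ?_⟩
    · have : -1 ≤ (s - L) / l := by rw [le_div_iff₀ hl0]; linarith
      linarith
    · have : (s - L) / l ≤ 0 := div_nonpos_of_nonpos_of_nonneg (by linarith) hl0.le
      linarith
    · simp only [hθ, hu, Complex.real_smul]
      push_cast
      have : (l : ℂ) ≠ 0 := by exact_mod_cast hl0.ne'
      field_simp
      ring
  · intro p hp
    by_contra hle
    push Not at hle
    set c : ℂ := b - (L : ℂ) * u + (s : ℂ) * u with hcdef
    have hdist : ‖(p : ℂ) - ((z i + μ i * w : GaussianInt) : ℂ)‖ ≤ R + 1 := by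
      calc _ ≤ ‖(p : ℂ) - c‖ + ‖c - ((z i + μ i * w : GaussianInt) : ℂ)‖ :=
            norm_sub_le_norm_sub_add_norm_sub _ _ _
        _ ≤ R + 1 := by
            rw [norm_sub_rev c]
            linarith
    have hpB := hB i w p hp hdist
    have hcb : ‖b - c‖ ≤ 2 * L := by
      have : b - c = ((L - s : ℝ) : ℂ) * u := by rw [hcdef]; push_cast; ring
      rw [this, norm_mul, hu1, Complex.norm_real, Real.norm_eq_abs, mul_one, abs_le]
      constructor <;> linarith
    have hh1 := norm_sub_norm_le b c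
    have hh2 := norm_sub_norm_le c (p : ℂ)
    rw [norm_sub_rev c] at hh2
    linarith

end

end Vale.Agent.P015
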